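import Vale.Agent.P011U.Base

/-!
The Chevalley relations over an arbitrary field, and rational points of the Chevalley group.
-/

set_option autoImplicit false
set_option linter.all false

namespace Vale.Agent.P011U

open Matrix Vale.Agent.P183CH Vale.Agent.P183CH.Chev

section
variable {F : Type} [Field F] {n : ℕ} {S : Subfield F} {M N : Matrix (Fin n) (Fin n) F}

/-- the entries of the matrix lie in the subfield -/
def Rat (S : Subfield F) (M : Matrix (Fin n) (Fin n) F) : Prop := ∀ a b, M a b ∈ S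

theorem Rat.mul (h : Rat S M) (h' : Rat S N) : Rat S (M * N) := fun a b => by
  rw [mul_apply]
  exact sum_mem fun c _ => mul_mem (h a c) (h' c b)

theorem rat_one : Rat S (1 : Matrix (Fin n) (Fin n) F) := fun a b => by
  rw [one_apply]
  split_ifs
  exacts [one_mem _, zero_mem _]

theorem rat_xm (E : ℕ → Matrix (Fin n) (Fin n) ℤ) {t : F} (ht : t ∈ S) : Rat S (xm E t) :=
  fun a b => by
  simp only [xm, Matrix.sum_apply, Matrix.smul_apply, map_apply, smul_eq_mul]
  exact sum_mem fun m _ => mul_mem (pow_mem ht m) (intCast_mem _ _)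

theorem rat_map {k : Type} [Field k] (f : k →+* F) (M : Matrix (Fin n) (Fin n) k) :
    Rat f.fieldRange (M.map f) := fun a b => ⟨_, rfl⟩

theorem peelF {R : RS} {w : Fin n → Fin R.r → ℤ} {E : R.Q → ℕ → Matrix (Fin n) (Fin n) ℤ}
    (h : RF R w E) (hR : R.Ok) (c : R.Q → F) : ∀ l : List R.Q, l.Nodup → (∀ γ ∈ l, γ ∈ R.Pos) →
    l.Pairwise (fun γ δ => ∑ i, γ i ≤ ∑ i, δ i) → Rat S (l.map fun γ => xm (E γ) (c γ)).prod →
    ∀ γ ∈ l, c γ ∈ S
  | [], _, _, _, _ => by simp
  | γ :: l, h1, h2, h3, h4 => by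
    obtain ⟨hγ, h0⟩ := h2 γ List.mem_cons_self
    have hc : c γ ∈ S := by
      obtain ⟨a, b, hab⟩ := h.exists_entry hγ F
      have e1 : (((γ :: l).map fun δ => (δ, c δ)).map Prod.fst) = γ :: l := by
        rw [List.map_map]; exact List.map_id _
      have := (h.prod_entry hR (hR.sum_pos hγ h0) ((γ :: l).map fun δ => (δ, c δ)) fun e he => by
        obtain ⟨δ, hδ, rfl⟩ := List.mem_map.1 he
        refine ⟨(h2 _ hδ).1, Or.inr ?_⟩
        rcases List.mem_cons.1 hδ with h8 | h8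
        · rw [h8]
        · exact List.rel_of_pairwise_cons h3 h8).2 a b
          (h.deg γ hγ a b fun e => hab (by rw [e, Int.cast_zero]))
      rw [sum_ite_nodup ((γ :: l).map fun δ => (δ, c δ)) (e1.symm ▸ h1) (γ, c γ) List.mem_cons_self,
        List.map_map] at this
      rw [show c γ = _ from eq_div_of_mul_eq hab this.symm]
      exact div_mem (sub_mem (h4 a b) (rat_one a b)) (intCast_mem _ _)
    have h5 := (rat_xm (E γ) (neg_mem hc)).mul h4
    rw [List.map_cons, List.prod_cons, ← mul_assoc, ← h.add hγ, neg_add_cancel, h.xm_zero hγ,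
      one_mul] at h5
    exact List.forall_mem_cons.2 ⟨hc, peelF h hR c l h1.of_cons
      (fun δ hδ => h2 δ (List.mem_cons_of_mem _ hδ)) h3.of_cons h5⟩

theorem exists_sorted {R : RS} {T : Set R.Q} (hT : T ⊆ R.Pos) : ∃ l : List R.Q, l.Nodup ∧
    (∀ γ, γ ∈ l ↔ γ ∈ T) ∧ l.Pairwise fun γ δ => ∑ i, γ i ≤ ∑ i, δ i := by
  classical
  obtain ⟨l, h1, h2⟩ := RS.exists_list hT
  let r : R.Q → R.Q → Prop := fun γ δ => ∑ i, γ i ≤ ∑ i, δ i
  have : Std.Total r := ⟨fun _ _ => le_total _ _⟩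
  have : IsTrans _ r := ⟨fun _ _ _ => le_trans⟩
  exact ⟨l.insertionSort r, (List.perm_insertionSort r _).nodup_iff.2 h1,
    fun γ => (List.perm_insertionSort r _).mem_iff.trans (h2 γ), List.pairwise_insertionSort r _⟩

/-- a retraction onto a subfield -/
theorem exists_retr (S : Subfield F) : ∃ p : F →+ F, (∀ x, p x ∈ S) ∧ p 1 = 1 ∧
    ∀ x, ∀ y ∈ S, p (x * y) = p x * y := by
  obtain ⟨π, hπ⟩ := LinearMap.exists_leftInverse_of_injective (Algebra.linearMap S F)
    (LinearMap.ker_eq_bot.2 Subtype.val_injective)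
  refine ⟨S.subtype.toAddMonoidHom.comp π.toAddMonoidHom, fun x => (π x).2, ?_, fun x y hy => ?_⟩
  · exact congrArg Subtype.val (LinearMap.congr_fun hπ 1)
  · have := congrArg Subtype.val (π.map_smul (⟨y, hy⟩ : S) x)
    rw [mul_comm, mul_comm _ y]
    exact this

/-- the unipotent factor of a rational matrix is rational -/
theorem rat_udl {ht : Fin n → ℤ} {u v u' v' : Matrix (Fin n) (Fin n) F}
    (hu : P183CH.Fl ht 1 (u - 1)) (hu' : P183CH.Fl ht 1 (u' - 1)) (e : u * u' = 1)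
    (hv : P183CH.Fl (fun a => -ht a) 0 v) (hv' : P183CH.Fl (fun a => -ht a) 0 v') (e' : v * v' = 1)
    (h : Rat S (u * v)) : Rat S u' := by
  obtain ⟨p, p1, p2, p3⟩ := exists_retr S
  have e1 : u'.map p * (u * v) = v.map p := by
    have : u' * (u * v) = v := by rw [← mul_assoc, mul_eq_one_comm.1 e, one_mul]
    ext a b
    conv_rhs => rw [← this, map_apply, mul_apply, map_sum]
    rw [mul_apply]
    exact Finset.sum_congr rfl fun c _ => (p3 _ _ (h c b)).symm
  have h1 : P183CH.Fl ht 1 (u'.map p - 1) := fun a b c => hu' a b fun c' => c (by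
    rw [Matrix.sub_apply, sub_eq_zero] at c' ⊢
    rw [map_apply, c', one_apply]
    split_ifs
    exacts [p2, map_zero p])
  have h2 : P183CH.Fl (fun a => -ht a) 0 (v.map p) := fun a b c => hv a b fun c' => c (by
    rw [map_apply, c', map_zero])
  have e2 : u'.map p * u = v.map p * v' := by rw [← e1, mul_assoc, mul_assoc u, e', mul_one]
  have e3 : u'.map p * u = 1 := by
    rw [← sub_eq_zero]
    ext a b
    by_contra c
    have h3 := h1.mul_sub zero_le_one hu a b c
    have h4 := h2.mul hv' a b (by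
      rw [Matrix.sub_apply, one_apply_ne (by rintro rfl; omega), sub_zero, e2] at c
      exact c)
    dsimp only at h4
    omega
  rw [← one_mul u', ← e3, mul_assoc, e, mul_one]
  exact fun a b => p1 _

end

variable {D : Chev} {k F : Type} [Field k] [Field F]

theorem GG_ok_of (h : ∀ γ ∈ D.R.Φ, ∀ δ ∈ D.R.Φ, 0 ≤ γ → 0 ≤ δ → ∀ t u,
    (GG D k).x γ t * (GG D k).x δ u * ((GG D k).x γ t)⁻¹ * ((GG D k).x δ u)⁻¹ ∈
      (GG D k).X {ε | ∃ a b : ℕ, 0 < a ∧ 0 < b ∧ ε = a • γ + b • δ}) : (GG D k).Ok where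
  add := GG_mat.add
  gen := eq_top_iff.2 (Subgroup.closure_closure_coe_preimage.ge.trans (Subgroup.closure_mono
    fun g ⟨i, t, h⟩ => ⟨i, t, h.imp (fun e => Subtype.ext ((Units.ext e).trans (GG_e i t).symm))
      fun e => Subtype.ext ((Units.ext e).trans (GG_f i t).symm)⟩))
  hh := GG_mat.hh
  hx := GG_mat.hx
  nx := fun i γ h => by
    have h := mem_Φ.1 h
    obtain ⟨ε, e⟩ := (h.refl i).rt.uniq (h.rt.conj (nice i))
    refine ⟨ε, fun u => ⟨Subtype.ext ?_, Subtype.ext ?_⟩⟩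
    · rw [Subgroup.coe_mul, Subgroup.coe_mul, Subgroup.coe_inv, GG_n, GG_x h, ← DP.exU_conj]
      exact (Units.ext (e k u).1).trans (GG_x (h.refl i) _).symm
    · rw [Subgroup.coe_mul, Subgroup.coe_mul, Subgroup.coe_inv, GG_n, GG_x h.neg, ← DP.exU_conj]
      exact (Units.ext (e k u).2).trans (GG_x (h.refl i).neg _).symm
  sl := fun i t => Subtype.ext (by
    rw [Subgroup.coe_mul _ ((GG D k).h i t), GG_n]
    exact (by rw [← GG_e, ← GG_f]; rfl : _ = _).trans (sl_GL' i t))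
  nh := fun i j t => Subtype.ext (by
    rw [Subgroup.coe_mul, Subgroup.coe_mul, Subgroup.coe_inv, GG_n]
    exact nn_dg i j t)
  comm := h
  uniq := GG_mat.uniq
  tri := GG_mat.tri

theorem fm_P (f : k →+* F) (l : List D.R.Q) (c : D.R.Q → k) :
    fm D f ((GG D k).P l c) = (GG D F).P l fun γ => f (c γ) := by
  rw [RG.P, map_list_prod, List.map_map]
  exact congrArg _ (List.map_congr_left fun γ _ => fm_x f γ _)

theorem rat_fm (f : k →+* F) (g : D.grp k) : Rat f.fieldRange (fm D f g).1.1 := rat_map f _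

theorem X_desc' (hF : (GG D F).Ok) (f : k →+* F) {S : Set D.R.Q} (hS : D.R.Cl S) {g : D.grp F}
    (hg : g ∈ (GG D F).X S) (h : Rat f.fieldRange g.1.1) :
    ∃ g₀ ∈ (GG D k).X S, fm D f g₀ = g := by
  obtain ⟨l, h1, h2, h3⟩ := exists_sorted hS.1
  obtain ⟨c, rfl⟩ := hF.exists_P (R_ok D) hS h1 h2 hg
  have h4 : ∀ γ ∈ l, γ ∈ D.R.Pos := fun γ e => hS.1 ((h2 γ).1 e)
  have h5 := GG_mat.prod_eq (Γ := GG D F) (l.map fun γ => (γ, c γ))
    (List.forall_mem_map.2 fun γ e => (h4 γ e).1)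
  rw [List.map_map, List.map_map] at h5
  have h6 := peelF (rf D) (R_ok D) c l h1 h4 h3 ((congrArg (Rat f.fieldRange) h5).mp h)
  choose! c' hc' using h6
  refine ⟨(GG D k).P l c', list_prod_mem fun x hx => ?_, (fm_P f l c').trans (RG.P_congr hc')⟩
  obtain ⟨γ, e, rfl⟩ := List.mem_map.1 hx
  exact RG.x_mem (h4 γ e).1 ((h2 γ).1 e) _

/-- **The Chevalley relations hold over every field.** -/
theorem GG_ok : (GG D k).Ok := GG_ok_of fun γ hγ δ hδ h1 h2 t u => by
  let f := algebraMap k (AlgebraicClosure k)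
  have hF : (GG D (AlgebraicClosure k)).Ok := GG_ok_of GG_mat.comm
  have hS : D.R.Cl {ε | ε ∈ D.R.Φ ∧ ∃ a b : ℕ, 0 < a ∧ 0 < b ∧ ε = a • γ + b • δ} := by
    refine ⟨?_, ?_⟩
    · rintro _ ⟨e, a, b, -, -, rfl⟩
      exact ⟨e, RS.comb_nonneg h1 h2 a b⟩
    · rintro _ ⟨-, a, b, ha, hb, rfl⟩ _ ⟨-, a', b', -, -, rfl⟩ c d hc - e
      exact ⟨e, c * a + d * a', c * b + d * b', by positivity, by positivity, by module⟩
  obtain ⟨g, hg, e⟩ := X_desc' hF f hS (RG.X_mono (fun _ a b => And.intro b a)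
    (hF.comm γ hγ δ hδ h1 h2 (f t) (f u))) (by
      rw [← fm_x, ← fm_x, ← map_inv, ← map_inv, ← map_mul, ← map_mul, ← map_mul]
      exact rat_fm f _)
  rw [← fm_x, ← fm_x, ← map_inv, ← map_inv, ← map_mul, ← map_mul, ← map_mul] at e
  exact fm_inj f e ▸ RG.X_mono (fun _ a _ => a.2) hg

theorem X_desc (f : k →+* F) {S : Set D.R.Q} (hS : D.R.Cl S) {g : D.grp F}
    (hg : g ∈ (GG D F).X S) (h : Rat f.fieldRange g.1.1) :
    ∃ g₀ ∈ (GG D k).X S, fm D f g₀ = g := X_desc' GG_ok f hS hg h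

theorem fm_n (f : k →+* F) (i : Fin D.r) : fm D f ((GG D k).n i) = (GG D F).n i :=
  Subtype.ext ((congrArg (gm f) (GG_n i)).trans ((gm_mp f _).trans (GG_n i).symm))

theorem fm_nd (f : k →+* F) (l : List (Fin D.r)) : fm D f ((GG D k).nd l) = (GG D F).nd l := by
  rw [RG.nd, map_list_prod, List.map_map]
  exact congrArg _ (List.map_congr_left fun i _ => fm_n f i)

theorem fm_hT (f : k →+* F) (s : Fin D.r → kˣ) :
    fm D f (GG_ok.hT s) = GG_ok.hT fun i => Units.map f.toMonoidHom (s i) := by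
  have : (fm D f).comp GG_ok.hT = (GG_ok (D := D) (k := F)).hT.comp
      (MonoidHom.compLeft (Units.map f.toMonoidHom) (Fin D.r)) := MonoidHom.pi_ext fun i x => by
    rw [MonoidHom.comp_apply, MonoidHom.comp_apply, GG_ok.hT_single, fm_h, ← GG_ok.hT_single]
    congr 1
    funext j
    exact (Pi.apply_mulSingle (fun _ => Units.map f.toMonoidHom) (fun _ => map_one _) i x j).symm
  exact DFunLike.congr_fun this s

/-- the matrix of a torus element -/
theorem hT_val (s : Fin D.r → kˣ) :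
    (GG_ok.hT s : D.grp k).1.1 = diagonal fun a => ((∏ i, s i ^ D.μ i a : kˣ) : k) := by
  let φ : (Fin D.r → kˣ) →* Matrix (Fin D.n) (Fin D.n) k :=
    { toFun := fun s => diagonal fun a => ((∏ i, s i ^ D.μ i a : kˣ) : k)
      map_one' := by simp
      map_mul' := fun s t => by simp [mul_zpow, Finset.prod_mul_distrib] }
  have : (D.nat k).comp GG_ok.hT = φ := MonoidHom.pi_ext fun i x => by
    rw [MonoidHom.comp_apply, GG_ok.hT_single]
    refine congrArg diagonal (funext fun a => congrArg Units.val ?_)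
    rw [Finset.prod_eq_single i (fun j _ e => by rw [Pi.mulSingle_eq_of_ne e, _root_.one_zpow])
      (by simp), Pi.mulSingle_eq_same]
  exact DFunLike.congr_fun this s

/-- the coordinates of the torus are monomials in the diagonal entries -/
theorem SC.coord (h : SC D) : ∃ c : Fin D.r → Fin D.n → ℤ, ∀ {A : Type} [CommGroup A]
    (s : Fin D.r → A) (j : Fin D.r), ∏ a, (∏ i, s i ^ D.μ i a) ^ c j a = s j := by
  have := fun j : Fin D.r => (Submodule.mem_span_range_iff_exists_fun ℤ).1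
    (show (Pi.single j 1 : Fin D.r → ℤ) ∈ _ from h ▸ Submodule.mem_top)
  choose c hc using this
  refine ⟨c, fun {A} _ s j => ?_⟩
  have h1 : ∀ (x : A) (e : Fin D.n → ℤ), ∏ a, x ^ e a = x ^ ∑ a, e a := fun x e =>
    (map_prod (zpowersHom _ x) (fun a => Multiplicative.ofAdd (e a)) _).symm.trans
      (congrArg (zpowersHom _ x) (ofAdd_sum _ e).symm)
  have h2 : ∀ i, ∑ a, D.μ i a * c j a = (Pi.single j 1 : Fin D.r → ℤ) i := fun i => by
    rw [← hc j, Finset.sum_apply]
    exact Finset.sum_congr rfl fun a _ => mul_comm _ _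
  simp only [← Finset.prod_zpow, ← _root_.zpow_mul]
  rw [Finset.prod_comm]
  simp only [h1, h2]
  rw [Finset.prod_eq_single j (fun i _ e => by rw [Pi.single_eq_of_ne e, zpow_zero]) (by simp),
    Pi.single_eq_same, zpow_one]

theorem SC.hT_inj (h : SC D) : Function.Injective (GG_ok (D := D) (k := k)).hT := fun s t e => by
  obtain ⟨c, hc⟩ := h.coord
  have h1 := (hT_val s).symm.trans ((congrArg (fun g : D.grp k => g.1.1) e).trans (hT_val t))
  funext j
  rw [← hc s j, ← hc t j]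
  exact Finset.prod_congr rfl fun a _ => by
    rw [Units.ext (congrFun (diagonal_injective h1) a)]

theorem SC.T_desc (h : SC D) (f : k →+* F) {t : D.grp F} (ht : t ∈ (GG D F).T)
    (hr : ∀ a, t.1.1 a a ∈ f.fieldRange) : ∃ t₀ ∈ (GG D k).T, fm D f t₀ = t := by
  obtain ⟨c, hc⟩ := h.coord
  obtain ⟨s, rfl⟩ := GG_ok.exists_hT ht
  have : ∀ j, ∃ x : kˣ, Units.map f.toMonoidHom x = s j := fun j => by
    have h1 : (s j : F) ∈ f.fieldRange := by
      rw [← hc s j, Units.coe_prod]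
      refine prod_mem fun a _ => ?_
      rw [Units.val_zpow_eq_zpow_val]
      refine zpow_mem ?_ _
      have := hr a
      rwa [hT_val, diagonal_apply_eq] at this
    obtain ⟨x, hx⟩ := h1
    exact ⟨Units.mk0 x fun e => (s j).ne_zero (by rw [← hx, e, map_zero]), Units.ext hx⟩
  choose s₀ hs using this
  exact ⟨_, GG_ok.hT_mem s₀, (fm_hT f s₀).trans (congrArg _ (funext hs))⟩

theorem fl_TV {t v : D.grp F} (ht : t ∈ (GG D F).T) (hv : v ∈ (GG D F).V) (e : Bool) :
    P183CH.Fl (fun a => -D.R.wht (D.wt a)) 0 (cond e (t * v) (v * t)).1.1 := by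
  obtain ⟨d, hd⟩ := GG_mat.diag_T ht
  have h1 : P183CH.Fl (fun a => -D.R.wht (D.wt a)) 0 t.1.1 := fun a b c => by
    rw [show t.1.1 = _ from hd] at c
    rw [show a = b from by_contra fun e => c (diagonal_apply_ne _ e), add_zero]
  have h2 : P183CH.Fl (fun a => -D.R.wht (D.wt a)) 0 v.1.1 := fun a b c => by
    rcases eq_or_ne a b with rfl | e
    · rw [add_zero]
    · have := GG_mat.fl_V hv a b (by rwa [Matrix.sub_apply, one_apply_ne e, sub_zero])
      dsimp only at this ⊢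
      omega
  cases e
  exacts [h2.mul h1, h1.mul h2]

/-- the factors of a rational element of the big cell are rational -/
theorem SC.utv_desc (h : SC D) (f : k →+* F) {u t v : D.grp F} (hu : u ∈ (GG D F).U)
    (ht : t ∈ (GG D F).T) (hv : v ∈ (GG D F).V) (hr : Rat f.fieldRange (u * t * v).1.1) :
    (∃ u₀ ∈ (GG D k).U, fm D f u₀ = u) ∧ (∃ t₀ ∈ (GG D k).T, fm D f t₀ = t) ∧
      Rat f.fieldRange v.1.1 := by
  have fU : ∀ u ∈ (GG D F).U, P183CH.Fl (fun a => D.R.wht (D.wt a)) 1 (u.1.1 - 1) := fun u hu => by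
    have := GG_mat.fl_U hu
    simp only [one_mul] at this
    exact this
  have h1 : Rat f.fieldRange (u⁻¹).1.1 := rat_udl (u := u.1.1) (v := (t * v).1.1)
    (v' := (v⁻¹ * t⁻¹).1.1) (fU u hu) (fU _ (inv_mem hu))
    (congrArg (fun g : D.grp F => g.1.1) (mul_inv_cancel u)) (fl_TV ht hv true)
    (fl_TV (inv_mem ht) (inv_mem hv) false)
    (congrArg (fun g : D.grp F => g.1.1) (show t * v * (v⁻¹ * t⁻¹) = 1 by group))
    (by rw [mul_assoc] at hr; exact hr)
  obtain ⟨u₀, h2, h3⟩ := X_desc f RS.cl_Pos (RG.U_eq (Γ := GG D F) ▸ inv_mem hu) h1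
  have h4 : Rat f.fieldRange (t * v).1.1 := by
    have : Rat f.fieldRange (u⁻¹ * (u * t * v)).1.1 := h1.mul hr
    rwa [mul_assoc, inv_mul_cancel_left] at this
  obtain ⟨t₀, h5, rfl⟩ := h.T_desc f ht fun a => by
    obtain ⟨d, hd⟩ := GG_mat.diag_T ht
    have := h4 a a
    rw [show (t * v).1.1 = diagonal d * D.nat F v from congrArg (· * v.1.1) hd, diagonal_mul,
      RG.Mat.diag_of (GG_mat.fl_V hv) a, mul_one] at this
    rwa [show t.1.1 = _ from hd, diagonal_apply_eq]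
  refine ⟨⟨u₀⁻¹, inv_mem (RG.U_eq (Γ := GG D k) ▸ h2), by rw [map_inv, h3, inv_inv]⟩,
    ⟨t₀, h5, rfl⟩, ?_⟩
  have : Rat f.fieldRange (fm D f t₀⁻¹ * (fm D f t₀ * v)).1.1 := (rat_fm f _).mul h4
  rwa [map_inv, inv_mul_cancel_left] at this

/-- **Rational points.** An element of the group over `F` with entries in `k` lies in the group
over `k`. -/
theorem SC.desc (h : SC D) (f : k →+* F) {g : D.grp F} (hr : Rat f.fieldRange g.1.1) :
    ∃ g₀, fm D f g₀ = g := by
  obtain ⟨u, hu, n, w, hn, v, hv, rfl⟩ := GG_ok.bruhat (R_ok D) g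
  obtain ⟨t, ht, l, rfl, rfl⟩ := GG_ok.exists_nd (R_ok D) hn
  have hv' := GG_ok.conj_V (R_ok D) (RG.rep_nd l) hv
  rw [← fm_nd f] at hv' hr ⊢
  generalize (GG D k).nd l = m at hv' hr ⊢
  obtain ⟨⟨u₀, -, rfl⟩, ⟨t₀, -, rfl⟩, h3⟩ := h.utv_desc f hu ht hv' (by
    have : Rat f.fieldRange (u * (t * fm D f m) * v * fm D f m⁻¹).1.1 := hr.mul (rat_fm f _)
    rwa [map_inv, show u * (t * fm D f m) * v * (fm D f m)⁻¹ =
      u * t * (fm D f m * v * (fm D f m)⁻¹) by group] at this)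
  obtain ⟨v₀, -, rfl⟩ := X_desc f (RS.cl_Inv _) hv (by
    have : Rat f.fieldRange (fm D f m⁻¹ * (fm D f m * v * (fm D f m)⁻¹) * fm D f m).1.1 :=
      ((rat_fm f _).mul h3).mul (rat_fm f _)
    rwa [map_inv, show (fm D f m)⁻¹ * (fm D f m * v * (fm D f m)⁻¹) * fm D f m = v by group] at this)
  exact ⟨u₀ * (t₀ * m) * v₀, by simp only [map_mul]⟩

theorem SC.cl0 (h : SC D) (f : k →+* F) {g : GL (Fin D.n) k} (hg : gm f g ∈ D.grp F) :
    g ∈ D.grp k := by
  obtain ⟨g₀, e⟩ := h.desc f (g := ⟨_, hg⟩) (rat_map f _)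
  exact gm_inj f (congrArg Subtype.val e) ▸ g₀.2

theorem SC.comap_eq (h : SC D) (f : k →+* F) : (D.grp F).comap (gm f) = D.grp k :=
  le_antisymm (fun _ hg => h.cl0 f hg) fun g hg => (fm D f ⟨g, hg⟩).2

end Vale.Agent.P011U
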